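import Vale.Agent.P290.H158.GOp

/-! P290 / H158: on a compact connected complex surface with Hermitian form `ω` there is a smooth
real function `u`, not identically zero, with `∂∂̄(u ω) = 0` (package F3-GAUD). -/

open scoped Manifold ContDiff ComplexOrder Topology NNReal ComplexConjugate
open Filter Set Metric

set_option maxSynthPendingDepth 3
set_option linter.unusedSectionVars false

noncomputable section

namespace Vale.Agent.P290.H158

open Vale.Agent.P267.FL
open Vale.Agent.P267.H469 (del11 S21 S22 stokesX intX_neg intX_smul reg_del11 reg_dbar1)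
open Vale.Agent.P272.K.LIN (CkFn RSm ckFn_const)

variable {X : Type*} [TopologicalSpace X] [ChartedSpace C2 X] [IsManifold 𝓘(ℂ, C2) ω X]
variable {h : X → Matrix (Fin 2) (Fin 2) ℂ}

theorem Qc_eq_of_re (hh : IsHerm h) {u : X → ℝ} (hu : CkFn C2 2 u) {x : X} {r : ℝ}
    (hr : (Qc h u x).re = r) : ddu h u x = Complex.I * ((r : ℂ) * (h x).det) := by
  have h1 : Qc h u x = (r : ℂ) := by
    apply Complex.ext
    · rw [hr, Complex.ofReal_re]
    · rw [Complex.ofReal_im]
      exact Complex.conj_eq_iff_im.1 (Qc_real hh hu x)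
  rw [Qc] at h1
  have hd := det_h_ne hh x
  have h2 : ddu h u x / (h x).det = Complex.I * (r : ℂ) := by
    rw [← h1, ← mul_assoc, mul_neg, Complex.I_mul_I, neg_neg, one_mul]
  rw [div_eq_iff hd] at h2
  rw [h2]
  ring

theorem d21_uom (u : X → ℝ) : TwoF.d21 (⟨0, fun y => (u y : ℂ) • (Complex.I • h y), 0⟩ : TwoF X) =
    del11 (uom h u) := by
  funext x j
  have h0 : dbar0 1 (0 : X → ℂ) x j = 0 := by
    unfold dbar0
    have : loc0 1 (chartAt C2 x) (0 : X → ℂ) = fun _ => 0 := by
      funext z; simp [loc0]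
    rw [this]
    exact Vale.Agent.P267.H469.dzb_const j 0
  rw [Vale.Agent.P267.H469.d21_eq]
  show dbar0 1 (0 : X → ℂ) x j + del11 (uom h u) x j = _
  rw [h0, zero_add]

variable [T2Space X] [CompactSpace X]

/-- **A smooth element of the kernel of `u ↦ ∂∂̄(u ω)`.** -/
theorem exists_gker [ConnectedSpace X] (hh : IsHerm h) :
    ∃ u : X → ℝ, CkFn C2 ∞ u ∧ (∃ x, u x ≠ 0) ∧
      ∀ x, dbar1 1 (TwoF.d21 (⟨0, fun y => (u y : ℂ) • (Complex.I • h y), 0⟩ : TwoF X)) x = 0 := by
  rcases (gLOp hh).alt_smooth (g := fun _ => (1 : ℝ)) (ckFn_const (1 : ℝ)) with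
    ⟨v, hv, hne, hQ⟩ | ⟨v, hv, hQ⟩
  · refine ⟨v, hv, hne, fun x => ?_⟩
    rw [d21_uom]
    have h1 : (Qc h v x).re = 0 := hQ x
    have h2 := Qc_eq_of_re hh (Vale.Agent.P267.H661.ckFn_two' hv) h1
    rw [Complex.ofReal_zero, zero_mul, mul_zero] at h2
    exact h2
  · exfalso
    have h1 : ∀ x, ddu h v x = Complex.I * (h x).det := by
      intro x
      have h1 : (Qc h v x).re = 1 := hQ x
      have h2 := Qc_eq_of_re hh (Vale.Agent.P267.H661.ckFn_two' hv) h1
      rwa [Complex.ofReal_one, one_mul] at h2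
    have h21 : del11 (uom h v) ∈ S21 X := reg_del11 (uom_reg le_rfl hh hv)
    have h22 : ddu h v ∈ S22 X := reg_dbar1 h21
    have h3 : intX (ddu h v) = 0 := stokesX h21
    have h4 : Complex.I • ddu h v ∈ S22 X := (S22 X).smul_mem _ h22
    have h5 : intX (Complex.I • ddu h v) = 0 := by rw [intX_smul _ h22, h3, mul_zero]
    have h6 : ∀ x, ((Complex.I • ddu h v) x).re = -((h x).det).re := by
      intro x
      rw [Pi.smul_apply, smul_eq_mul, h1, ← mul_assoc, Complex.I_mul_I, neg_one_mul,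
        Complex.neg_re]
    have hpos : ∀ x, 0 < ((h x).det).re := fun x => (Complex.lt_def.1 (hh.posDef x).det_pos).1
    obtain ⟨-, h7⟩ := intX_neg h4 (fun x => by rw [h6]; have := hpos x; linarith)
    obtain ⟨x0⟩ : Nonempty X := inferInstance
    have h8 := h7 (by rw [h5]; simp) x0
    rw [h6] at h8
    have := hpos x0
    linarith

end Vale.Agent.P290.H158
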