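import Vale.Agent.P290.H158.Lop
import Vale.Agent.P267.H469.CalcInst
import Vale.Agent.P267.H661.Gf

/-! P290 / H158: the operator `u ↦ ∂∂̄(u ω) / ω²` of a Hermitian surface as a scalar elliptic
operator with lower order terms. -/

open scoped Manifold ContDiff ComplexOrder Topology NNReal ComplexConjugate
open Filter Set Metric

set_option maxSynthPendingDepth 3
set_option linter.unusedSectionVars false

noncomputable section

namespace Vale.Agent.P290.H158

open Vale.Agent.P267.FL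
open Vale.Agent.P267.H469 (del11 del11_law dbar1_law dz_diff dzb_diff dz_conj dzb_conj)
open Vale.Agent.P267.H661 (gop cx SOp Pw Pw_eq isHermitian_loc11)
open Vale.Agent.P272.K.LIN (CkFn RSm)

/-! ### calculus in a chart -/

section cal

variable {u g : C2 → ℂ} {z : C2}

theorem ev_diff (hu : ContDiffAt ℝ 2 u z) : ∀ᶠ v in 𝓝 z, DifferentiableAt ℝ u v := by
  filter_upwards [hu.eventually (by simp)] with v hv
  exact hv.differentiableAt (by simp)

theorem mul_diff2 (hu : ContDiffAt ℝ 2 u z) (hg : ContDiffAt ℝ 2 g z) :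
    ContDiffAt ℝ 2 (fun w => u w * g w) z := hu.mul hg

/-- `∂̄_i ∂_j (u g)` -/
theorem mixed_mul (hu : ContDiffAt ℝ 2 u z) (hg : ContDiffAt ℝ 2 g z) (i j : Fin 2) :
    dzb i (dz j fun w => u w * g w) z =
      dzb i (dz j u) z * g z + dz j u z * dzb i g z +
        (dzb i u z * dz j g z + u z * dzb i (dz j g) z) := by
  have hud := hu.differentiableAt (by simp : (2 : WithTop ℕ∞) ≠ 0)
  have hgd := hg.differentiableAt (by simp : (2 : WithTop ℕ∞) ≠ 0)
  have h1 : (dz j fun w => u w * g w) =ᶠ[𝓝 z] fun v => dz j u v * g v + u v * dz j g v := by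
    filter_upwards [ev_diff hu, ev_diff hg] with v h1 h2
    have := Vale.Agent.P267.H469.dz_smul (c := u) (f := g) j h1 h2
    simpa only [smul_eq_mul] using this
  have hdu := dz_diff hu j
  have hdg := dz_diff hg j
  rw [Vale.Agent.P267.H469.dzb_congr h1,
    Vale.Agent.P267.H469.dzb_add (f := fun v => dz j u v * g v) (g := fun v => u v * dz j g v) i
      (hdu.mul hgd) (hud.mul hdg)]
  have e1 := Vale.Agent.P267.H469.dzb_smul (c := dz j u) (f := g) i hdu hgd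
  have e2 := Vale.Agent.P267.H469.dzb_smul (c := u) (f := dz j g) i hud hdg
  simp only [smul_eq_mul] at e1 e2
  rw [e1, e2]

/-- the coefficient of `∂∂̄(u H)` up to a factor -/
def Nop (u : C2 → ℂ) (H : C2 → Matrix (Fin 2) (Fin 2) ℂ) (z : C2) : ℂ :=
  dzb 0 (dz 0 fun w => u w * H w 1 1) z - dzb 0 (dz 1 fun w => u w * H w 0 1) z -
    (dzb 1 (dz 0 fun w => u w * H w 1 0) z - dzb 1 (dz 1 fun w => u w * H w 0 0) z)

variable {H : C2 → Matrix (Fin 2) (Fin 2) ℂ}

/-- coefficient of `∂_0 u` -/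
def cP0 (H : C2 → Matrix (Fin 2) (Fin 2) ℂ) (z : C2) : ℂ :=
  dzb 0 (fun w => H w 1 1) z - dzb 1 (fun w => H w 1 0) z
/-- coefficient of `∂_1 u` -/
def cP1 (H : C2 → Matrix (Fin 2) (Fin 2) ℂ) (z : C2) : ℂ :=
  dzb 1 (fun w => H w 0 0) z - dzb 0 (fun w => H w 0 1) z
/-- coefficient of `∂̄_0 u` -/
def cQ0 (H : C2 → Matrix (Fin 2) (Fin 2) ℂ) (z : C2) : ℂ :=
  dz 0 (fun w => H w 1 1) z - dz 1 (fun w => H w 0 1) z
/-- coefficient of `∂̄_1 u` -/
def cQ1 (H : C2 → Matrix (Fin 2) (Fin 2) ℂ) (z : C2) : ℂ :=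
  dz 1 (fun w => H w 0 0) z - dz 0 (fun w => H w 1 0) z
/-- zeroth order coefficient -/
def cZ (H : C2 → Matrix (Fin 2) (Fin 2) ℂ) (z : C2) : ℂ :=
  dzb 0 (dz 0 fun w => H w 1 1) z - dzb 0 (dz 1 fun w => H w 0 1) z -
    (dzb 1 (dz 0 fun w => H w 1 0) z - dzb 1 (dz 1 fun w => H w 0 0) z)

theorem Nop_eq (hu : ContDiffAt ℝ 2 u z) (hH : ∀ i j, ContDiffAt ℝ 2 (fun w => H w i j) z) :
    Nop u H z = (dzb 0 (dz 0 u) z * H z 1 1 - dzb 0 (dz 1 u) z * H z 0 1 -
        dzb 1 (dz 0 u) z * H z 1 0 + dzb 1 (dz 1 u) z * H z 0 0) +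
      (cP0 H z * dz 0 u z + cP1 H z * dz 1 u z + cQ0 H z * dzb 0 u z + cQ1 H z * dzb 1 u z) +
      cZ H z * u z := by
  rw [Nop, mixed_mul hu (hH 1 1), mixed_mul hu (hH 0 1), mixed_mul hu (hH 1 0),
    mixed_mul hu (hH 0 0), cP0, cP1, cQ0, cQ1, cZ]
  ring

theorem Nop_one (H : C2 → Matrix (Fin 2) (Fin 2) ℂ) (z : C2) : Nop (fun _ => 1) H z = cZ H z := by
  simp only [Nop, one_mul, cZ]

/-- reality -/
theorem Nop_conj {u : C2 → ℂ} (hu : ContDiffAt ℝ 2 u z)
    (hH : ∀ i j, ContDiffAt ℝ 2 (fun w => H w i j) z) (hur : ∀ᶠ w in 𝓝 z, conj (u w) = u w)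
    (hHr : ∀ᶠ w in 𝓝 z, ∀ i j, conj (H w i j) = H w j i) : conj (Nop u H z) = Nop u H z := by
  have key : ∀ a b i j, conj (dzb i (dz j fun w => u w * H w a b) z) =
      dzb j (dz i fun w => u w * H w b a) z := by
    intro a b i j
    have h1 := dz_conj (dz j fun w => u w * H w a b) z i
    rw [← h1]
    have h2 : (fun w => conj (dz j (fun w => u w * H w a b) w)) =
        dzb j (fun w => conj (u w * H w a b)) := by
      funext w
      exact (dzb_conj (fun w => u w * H w a b) w j).symm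
    rw [h2]
    have h3 : (fun w => conj (u w * H w a b)) =ᶠ[𝓝 z] fun w => u w * H w b a := by
      filter_upwards [hur, hHr] with w h4 h5
      rw [map_mul, h4, h5]
    have h4 : dzb j (fun w => conj (u w * H w a b)) =ᶠ[𝓝 z] dzb j (fun w => u w * H w b a) := by
      filter_upwards [h3.eventually_nhds] with w hw
      exact Vale.Agent.P267.H469.dzb_congr hw j
    rw [Vale.Agent.P267.H469.dz_congr h4,
      Vale.Agent.P267.H469.dz_dzb_comm (mul_diff2 hu (hH b a))]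
  rw [Nop, map_sub, map_sub, map_sub, key, key, key, key]
  ring

/-- `ξ ↦ ξ(∂_j)` -/
def pz (j : Fin 2) : (C2 →L[ℝ] ℝ) →L[ℝ] ℂ :=
  (1 / 2 : ℂ) • (Complex.ofRealCLM.comp (ContinuousLinearMap.apply ℝ ℝ (Pi.single j (1 : ℂ) : C2)) -
    Complex.I • Complex.ofRealCLM.comp
      (ContinuousLinearMap.apply ℝ ℝ (Pi.single j Complex.I : C2)))

/-- `ξ ↦ ξ(∂̄_j)` -/
def pzb (j : Fin 2) : (C2 →L[ℝ] ℝ) →L[ℝ] ℂ :=
  (1 / 2 : ℂ) • (Complex.ofRealCLM.comp (ContinuousLinearMap.apply ℝ ℝ (Pi.single j (1 : ℂ) : C2)) +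
    Complex.I • Complex.ofRealCLM.comp
      (ContinuousLinearMap.apply ℝ ℝ (Pi.single j Complex.I : C2)))

theorem fderiv_ofReal {f : C2 → ℝ} (hf : DifferentiableAt ℝ f z) (v : C2) :
    fderiv ℝ (fun w => (f w : ℂ)) z v = (fderiv ℝ f z v : ℂ) := by
  have := (Complex.ofRealCLM.hasFDerivAt (x := f z)).comp z hf.hasFDerivAt
  have h2 : HasFDerivAt (fun w => (f w : ℂ)) (Complex.ofRealCLM.comp (fderiv ℝ f z)) z := this
  rw [h2.fderiv]
  rfl

theorem dz_real {f : C2 → ℝ} (hf : DifferentiableAt ℝ f z) (j : Fin 2) :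
    dz j (fun w => (f w : ℂ)) z = pz j (fderiv ℝ f z) := by
  unfold dz
  rw [fderiv_ofReal hf, fderiv_ofReal hf]
  rfl

theorem dzb_real {f : C2 → ℝ} (hf : DifferentiableAt ℝ f z) (j : Fin 2) :
    dzb j (fun w => (f w : ℂ)) z = pzb j (fderiv ℝ f z) := by
  unfold dzb
  rw [fderiv_ofReal hf, fderiv_ofReal hf]
  rfl

/-- `m ↦ (ξ ↦ Re (m T ξ))` -/
def cf (T : (C2 →L[ℝ] ℝ) →L[ℝ] ℂ) : ℂ →L[ℝ] ((C2 →L[ℝ] ℝ) →L[ℝ] ℝ) :=
  (ContinuousLinearMap.compL ℝ (C2 →L[ℝ] ℝ) ℂ ℝ Complex.reCLM).comp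
    (((ContinuousLinearMap.compL ℝ (C2 →L[ℝ] ℝ) ℂ ℂ).flip T).comp (ContinuousLinearMap.mul ℝ ℂ))

theorem cf_apply (T : (C2 →L[ℝ] ℝ) →L[ℝ] ℂ) (m : ℂ) (ξ : C2 →L[ℝ] ℝ) :
    cf T m ξ = (m * T ξ).re := rfl

end cal

/-! ### the operator on a surface -/

section surf

variable {X : Type*} [TopologicalSpace X] [ChartedSpace C2 X]
variable {h : X → Matrix (Fin 2) (Fin 2) ℂ}

/-- the `(1,1)`-form `u ω` -/
def uom (h : X → Matrix (Fin 2) (Fin 2) ℂ) (u : X → ℝ) : X → Matrix (Fin 2) (Fin 2) ℂ :=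
  fun y => (u y : ℂ) • (Complex.I • h y)

/-- `∂∂̄(u ω)` -/
def ddu (h : X → Matrix (Fin 2) (Fin 2) ℂ) (u : X → ℝ) : X → ℂ := dbar1 1 (del11 (uom h u))

theorem loc11_uom (e : Ch X) (u : X → ℝ) (z : C2) (i j : Fin 2) :
    loc11 e (uom h u) z i j = Complex.I * ((u (e.symm z) : ℂ) * loc11 e h z i j) := by
  simp only [loc11, uom, Matrix.of_apply, Matrix.smul_apply, smul_eq_mul, Fin.sum_univ_two]
  ring

variable [IsManifold 𝓘(ℂ, C2) ω X]

theorem uom_reg {n : WithTop ℕ∞} (hn : n ≤ ∞) (hh : IsHerm h) {u : X → ℝ} (hu : CkFn C2 n u) :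
    Reg11 n (uom h u) := by
  intro e he i j
  have h1 : (fun z => loc11 e (uom h u) z i j) =
      fun z => Complex.I * ((u (e.symm z) : ℂ) * loc11 e h z i j) := by
    funext z; exact loc11_uom e u z i j
  rw [h1]
  intro z hz
  have h2 : ContDiffAt ℝ n (fun z => (u (e.symm z) : ℂ)) z :=
    Complex.ofRealCLM.contDiff.contDiffAt.comp z (hu.at_target he hz)
  have h3 : ContDiffAt ℝ n (fun z => loc11 e h z i j) z :=
    ((hh.smooth e he i j).contDiffAt (e.open_target.mem_nhds hz)).of_le hn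
  exact (contDiffAt_const.mul (h2.mul h3)).contDiffWithinAt

theorem locH_cd (hh : IsHerm h) {e : Ch X} (he : e ∈ atlas C2 X) {z : C2} (hz : z ∈ e.target)
    (i j : Fin 2) : ContDiffAt ℝ ∞ (fun z => loc11 e h z i j) z :=
  (hh.smooth e he i j).contDiffAt (e.open_target.mem_nhds hz)

theorem locH_cd2 (hh : IsHerm h) {e : Ch X} (he : e ∈ atlas C2 X) {z : C2} (hz : z ∈ e.target)
    (i j : Fin 2) : ContDiffAt ℝ 2 (fun z => loc11 e h z i j) z :=
  (locH_cd hh he hz i j).of_le Vale.Agent.P267.H469.two_le_infty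

theorem locu_cd2 {u : X → ℝ} (hu : CkFn C2 2 u) {e : Ch X} (he : e ∈ atlas C2 X) {z : C2}
    (hz : z ∈ e.target) : ContDiffAt ℝ 2 (fun z => (u (e.symm z) : ℂ)) z :=
  Complex.ofRealCLM.contDiff.contDiffAt.comp z (hu.at_target he hz)

/-- `∂(u ω)` in a chart -/
theorem del11_uom (hh : IsHerm h) {u : X → ℝ} (hu : CkFn C2 2 u) {e : Ch X}
    (he : e ∈ atlas C2 X) {z : C2} (hz : z ∈ e.target) (j : Fin 2) :
    loc1 1 e (del11 (uom h u)) z j =
      Complex.I * (dz 0 (fun w => (u (e.symm w) : ℂ) * loc11 e h w 1 j) z -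
        dz 1 (fun w => (u (e.symm w) : ℂ) * loc11 e h w 0 j) z) := by
  have h2 : ((1 : WithTop ℕ∞)) ≤ 2 := by norm_num
  rw [del11_law (uom_reg (Vale.Agent.P267.H469.one_le_infty) hh (hu.of_le h2)) he hz j]
  have h3 : ∀ i, (fun v => loc11 e (uom h u) v i j) =
      fun w => Complex.I • ((u (e.symm w) : ℂ) * loc11 e h w i j) := by
    intro i; funext w; rw [smul_eq_mul]; exact loc11_uom e u w i j
  have h4 : ∀ i, DifferentiableAt ℝ (fun w => (u (e.symm w) : ℂ) * loc11 e h w i j) z := fun i =>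
    ((locu_cd2 hu he hz).mul (locH_cd2 hh he hz i j)).differentiableAt (by simp)
  rw [h3, h3, Vale.Agent.P267.H469.dz_const_smul 0 _ (h4 1),
    Vale.Agent.P267.H469.dz_const_smul 1 _ (h4 0)]
  simp only [smul_eq_mul]
  ring

theorem del11_uom_reg (hh : IsHerm h) {u : X → ℝ} (hu : CkFn C2 2 u) :
    Reg1 1 1 (del11 (uom h u)) := by
  intro e he
  rw [contDiffOn_pi]
  intro j
  have h5 : ∀ i, ContDiffOn ℝ 2 (fun w => (u (e.symm w) : ℂ) * loc11 e h w i j) e.target :=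
    fun i w hw => ((locu_cd2 hu he hw).mul (locH_cd2 hh he hw i j)).contDiffWithinAt
  refine ContDiffOn.congr ?_ fun z hz => del11_uom hh hu he hz j
  refine contDiffOn_const.mul ?_
  exact (Vale.Agent.P267.H469.dz_contDiffOn e.open_target (h5 1) (by norm_num) 0).sub
    (Vale.Agent.P267.H469.dz_contDiffOn e.open_target (h5 0) (by norm_num) 1)

/-- `∂∂̄(u ω)` in a chart -/
theorem ddu_law (hh : IsHerm h) {u : X → ℝ} (hu : CkFn C2 2 u) {e : Ch X}
    (he : e ∈ atlas C2 X) {z : C2} (hz : z ∈ e.target) :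
    loc2 1 e (ddu h u) z = Complex.I * Nop (fun w => (u (e.symm w) : ℂ)) (loc11 e h) z := by
  rw [ddu, dbar1_law (del11_uom_reg hh hu) he hz]
  have h1 : ∀ j, (fun v => loc1 1 e (del11 (uom h u)) v j) =ᶠ[𝓝 z] fun v =>
      Complex.I • (dz 0 (fun w => (u (e.symm w) : ℂ) * loc11 e h w 1 j) v -
        dz 1 (fun w => (u (e.symm w) : ℂ) * loc11 e h w 0 j) v) := by
    intro j
    filter_upwards [e.open_target.mem_nhds hz] with v hv
    rw [smul_eq_mul]
    exact del11_uom hh hu he hv j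
  have h5 : ∀ i j, ContDiffAt ℝ 2 (fun w => (u (e.symm w) : ℂ) * loc11 e h w i j) z :=
    fun i j => (locu_cd2 hu he hz).mul (locH_cd2 hh he hz i j)
  have h6 : ∀ j, DifferentiableAt ℝ (fun v =>
      dz 0 (fun w => (u (e.symm w) : ℂ) * loc11 e h w 1 j) v -
        dz 1 (fun w => (u (e.symm w) : ℂ) * loc11 e h w 0 j) v) z := fun j =>
    (dz_diff (h5 1 j) 0).sub (dz_diff (h5 0 j) 1)
  rw [Vale.Agent.P267.H469.dzb_congr (h1 1), Vale.Agent.P267.H469.dzb_congr (h1 0),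
    Vale.Agent.P267.H469.dzb_const_smul 0 _ (h6 1), Vale.Agent.P267.H469.dzb_const_smul 1 _ (h6 0),
    Vale.Agent.P267.H469.dzb_sub (f := dz 0 fun w => (u (e.symm w) : ℂ) * loc11 e h w 1 1)
      (g := dz 1 fun w => (u (e.symm w) : ℂ) * loc11 e h w 0 1) 0 (dz_diff (h5 1 1) 0)
      (dz_diff (h5 0 1) 1),
    Vale.Agent.P267.H469.dzb_sub (f := dz 0 fun w => (u (e.symm w) : ℂ) * loc11 e h w 1 0)
      (g := dz 1 fun w => (u (e.symm w) : ℂ) * loc11 e h w 0 0) 1 (dz_diff (h5 1 0) 0)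
      (dz_diff (h5 0 0) 1)]
  simp only [Nop, smul_eq_mul]
  ring

theorem det_loc11 (e : Ch X) (g : X → Matrix (Fin 2) (Fin 2) ℂ) (z : C2) :
    (loc11 e g z).det = (jac e (e.symm z)).det * conj (jac e (e.symm z)).det *
      (g (e.symm z)).det := by
  rw [Vale.Agent.P267.H661.loc11_eq, Matrix.det_mul, Matrix.det_mul, Matrix.det_transpose]
  have : ((jac e (e.symm z)).map (starRingEnd ℂ)).det = conj (jac e (e.symm z)).det := by
    rw [Matrix.det_fin_two, Matrix.det_fin_two]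
    simp [Matrix.map_apply]
  rw [this]
  ring

theorem det_h_ne (hh : IsHerm h) (x : X) : (h x).det ≠ 0 := (hh.posDef x).det_pos.ne'

/-- quotient of two densities in a chart -/
theorem quot_law (hh : IsHerm h) (b : X → ℂ) {e : Ch X} (he : e ∈ atlas C2 X) {z : C2}
    (hz : z ∈ e.target) : b (e.symm z) / (h (e.symm z)).det = loc2 1 e b z / (loc11 e h z).det := by
  have hj := jac_det_ne_zero he (e.map_target hz)
  have hj' : conj (jac e (e.symm z)).det ≠ 0 := (map_ne_zero _).2 hj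
  rw [det_loc11]
  simp only [loc2, zpow_one, smul_eq_mul]
  rw [div_eq_div_iff (det_h_ne hh _) (mul_ne_zero (mul_ne_zero hj hj') (det_h_ne hh _))]
  ring

/-- the complex quotient `∂∂̄(u ω) / (i det h)` -/
def Qc (h : X → Matrix (Fin 2) (Fin 2) ℂ) (u : X → ℝ) (x : X) : ℂ :=
  (-Complex.I) * (ddu h u x / (h x).det)

theorem Qc_law (hh : IsHerm h) {u : X → ℝ} (hu : CkFn C2 2 u) {e : Ch X}
    (he : e ∈ atlas C2 X) {z : C2} (hz : z ∈ e.target) :
    Qc h u (e.symm z) = Nop (fun w => (u (e.symm w) : ℂ)) (loc11 e h) z / (loc11 e h z).det := by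
  rw [Qc, quot_law hh _ he hz, ddu_law hh hu he hz, mul_div_assoc', ← mul_assoc, neg_mul,
    Complex.I_mul_I, neg_neg, one_mul]

theorem locH_conj (hh : IsHerm h) (e : Ch X) (z : C2) (i j : Fin 2) :
    conj (loc11 e h z i j) = loc11 e h z j i := by
  have hs : ∀ p q, conj (h (e.symm z) p q) = h (e.symm z) q p := fun p q => by
    have := congrFun (congrFun (hh.posDef (e.symm z)).1 q) p
    rw [Matrix.conjTranspose_apply] at this
    exact this
  simp only [loc11, Matrix.of_apply, smul_eq_mul, Fin.sum_univ_two, map_add, map_mul,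
    Complex.conj_conj, hs]
  ring

theorem Nop_real (hh : IsHerm h) {u : X → ℝ} (hu : CkFn C2 2 u) {e : Ch X}
    (he : e ∈ atlas C2 X) {z : C2} (hz : z ∈ e.target) :
    conj (Nop (fun w => (u (e.symm w) : ℂ)) (loc11 e h) z) =
      Nop (fun w => (u (e.symm w) : ℂ)) (loc11 e h) z :=
  Nop_conj (locu_cd2 hu he hz) (fun i j => locH_cd2 hh he hz i j)
    (Eventually.of_forall fun _ => Complex.conj_ofReal _)
    (Eventually.of_forall fun w i j => locH_conj hh e w i j)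

theorem det_real (hh : IsHerm h) (x : X) : conj (h x).det = (h x).det := by
  have h0 := (hh.posDef x).det_pos
  exact Complex.conj_eq_iff_im.2 (Complex.lt_def.1 h0).2.symm

theorem detH_real (hh : IsHerm h) (e : Ch X) (z : C2) :
    conj (loc11 e h z).det = (loc11 e h z).det := by
  rw [det_loc11, map_mul, map_mul, Complex.conj_conj, det_real hh]
  ring

/-- the quotient is real -/
theorem Qc_real (hh : IsHerm h) {u : X → ℝ} (hu : CkFn C2 2 u) (x : X) :
    conj (Qc h u x) = Qc h u x := by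
  have he := chart_mem_atlas C2 x
  have hz := (chartAt C2 x).map_source (mem_chart_source C2 x)
  have h1 := Qc_law hh hu he hz
  rw [(chartAt C2 x).left_inv (mem_chart_source C2 x)] at h1
  rw [h1, map_div₀, Nop_real hh hu he hz, detH_real hh]

theorem trace_inv_mul {m g : Matrix (Fin 2) (Fin 2) ℂ} :
    (m⁻¹ * g).trace = (m 1 1 * g 0 0 - m 0 1 * g 1 0 - m 1 0 * g 0 1 + m 0 0 * g 1 1) / m.det := by
  rw [Matrix.inv_def, Matrix.adjugate_fin_two, Ring.inverse_eq_inv']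
  simp only [Matrix.smul_mul, Matrix.trace_smul, smul_eq_mul, Matrix.trace_fin_two, Matrix.mul_apply,
    Fin.sum_univ_two, Matrix.of_apply, Matrix.cons_val', Matrix.cons_val_zero, Matrix.cons_val_one,
    Matrix.cons_val_fin_one]
  rw [div_eq_inv_mul]
  ring

/-- the leading part -/
theorem gop_law (hh : IsHerm h) {u : X → ℝ} (hu : CkFn C2 2 u) {e : Ch X}
    (he : e ∈ atlas C2 X) {z : C2} (hz : z ∈ e.target) :
    (gop hh).P u (e.symm z) = ((dzb 0 (dz 0 fun w => (u (e.symm w) : ℂ)) z * loc11 e h z 1 1 -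
        dzb 0 (dz 1 fun w => (u (e.symm w) : ℂ)) z * loc11 e h z 0 1 -
        dzb 1 (dz 0 fun w => (u (e.symm w) : ℂ)) z * loc11 e h z 1 0 +
        dzb 1 (dz 1 fun w => (u (e.symm w) : ℂ)) z * loc11 e h z 0 0) / (loc11 e h z).det).re := by
  have h1 : (gop hh).P u (e.symm z) = Pw (fun (e : Ch X) z => loc11 e h z) u (e.symm z) := rfl
  rw [h1, Pw_eq (isHermitian_loc11 hh) hu (e := e) ⟨he, e.map_target hz⟩, e.right_inv hz,
    trace_inv_mul]
  have h2 : ∀ i j, Vale.Agent.P272.K.cHess (fun y => u (e.symm y)) z i j =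
      dzb j (dz i fun w => (u (e.symm w) : ℂ)) z := by
    intro i j
    have h3 : Vale.Agent.P272.K.cHess (fun y => u (e.symm y)) z i j =
        dz i (dzb j fun w => (u (e.symm w) : ℂ)) z := by
      simp only [Vale.Agent.P272.K.cHess, Matrix.of_apply]
      rw [Vale.Agent.P267.H661.dz_eq]
      congr 1
      funext z
      exact (Vale.Agent.P267.H661.dzb_eq _ _ _).symm
    rw [h3, Vale.Agent.P267.H469.dz_dzb_comm (locu_cd2 hu he hz)]
  simp only [h2]
  congr 2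
  ring

/-- first order coefficient -/
def gb (h : X → Matrix (Fin 2) (Fin 2) ℂ) (e : Ch X) (y : C2) : (C2 →L[ℝ] ℝ) →L[ℝ] ℝ :=
  cf (pz 0) (cP0 (loc11 e h) y / (loc11 e h y).det) +
    cf (pz 1) (cP1 (loc11 e h) y / (loc11 e h y).det) +
    cf (pzb 0) (cQ0 (loc11 e h) y / (loc11 e h y).det) +
    cf (pzb 1) (cQ1 (loc11 e h) y / (loc11 e h y).det)

theorem detH_ne (hh : IsHerm h) {e : Ch X} (he : e ∈ atlas C2 X) {z : C2} (hz : z ∈ e.target) :
    (loc11 e h z).det ≠ 0 := by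
  have hj := jac_det_ne_zero he (e.map_target hz)
  have hj' : conj (jac e (e.symm z)).det ≠ 0 := (map_ne_zero _).2 hj
  rw [det_loc11]
  exact mul_ne_zero (mul_ne_zero hj hj') (det_h_ne hh _)

theorem detH_cd (hh : IsHerm h) {e : Ch X} (he : e ∈ atlas C2 X) {z : C2} (hz : z ∈ e.target) :
    ContDiffAt ℝ ∞ (fun z => (loc11 e h z).det) z := by
  have h1 : (fun z => (loc11 e h z).det) = fun z => loc11 e h z 0 0 * loc11 e h z 1 1 -
      loc11 e h z 0 1 * loc11 e h z 1 0 := by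
    funext z; exact Matrix.det_fin_two _
  rw [h1]
  exact ((locH_cd hh he hz 0 0).mul (locH_cd hh he hz 1 1)).sub
    ((locH_cd hh he hz 0 1).mul (locH_cd hh he hz 1 0))

theorem dz_cd {f : C2 → ℂ} {z : C2} (hf : ContDiffAt ℝ ∞ f z) (j : Fin 2) :
    ContDiffAt ℝ ∞ (dz j f) z := contDiffAt_dz hf (by simp) j

theorem dzb_cd {f : C2 → ℂ} {z : C2} (hf : ContDiffAt ℝ ∞ f z) (j : Fin 2) :
    ContDiffAt ℝ ∞ (dzb j f) z := contDiffAt_dzb hf (by simp) j

theorem gb_smooth (hh : IsHerm h) {e : Ch X} (he : e ∈ atlas C2 X) {z : C2} (hz : z ∈ e.target) :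
    ContDiffAt ℝ ∞ (gb h e) z := by
  have hd := detH_cd hh he hz
  have hne := detH_ne hh he hz
  have hH := fun i j => locH_cd hh he hz i j
  have k0 : ContDiffAt ℝ ∞ (cP0 (loc11 e h)) z := (dzb_cd (hH 1 1) 0).sub (dzb_cd (hH 1 0) 1)
  have k1 : ContDiffAt ℝ ∞ (cP1 (loc11 e h)) z := (dzb_cd (hH 0 0) 1).sub (dzb_cd (hH 0 1) 0)
  have k2 : ContDiffAt ℝ ∞ (cQ0 (loc11 e h)) z := (dz_cd (hH 1 1) 0).sub (dz_cd (hH 0 1) 1)
  have k3 : ContDiffAt ℝ ∞ (cQ1 (loc11 e h)) z := (dz_cd (hH 0 0) 1).sub (dz_cd (hH 1 0) 0)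
  have hdiv : ∀ {f : C2 → ℂ}, ContDiffAt ℝ ∞ f z →
      ContDiffAt ℝ ∞ (fun y => f y / (loc11 e h y).det) z := fun {f} hf => by
    simp only [div_eq_mul_inv]
    exact hf.mul (hd.inv hne)
  unfold gb
  exact ((((cf (pz 0)).contDiff.contDiffAt.comp z (hdiv k0)).add
    ((cf (pz 1)).contDiff.contDiffAt.comp z (hdiv k1))).add
    ((cf (pzb 0)).contDiff.contDiffAt.comp z (hdiv k2))).add
    ((cf (pzb 1)).contDiff.contDiffAt.comp z (hdiv k3))

/-- zeroth order coefficient -/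
def gc (h : X → Matrix (Fin 2) (Fin 2) ℂ) (x : X) : ℝ := (Qc h (fun _ => 1) x).re

theorem ck_one {n : WithTop ℕ∞} : CkFn C2 n (fun _ : X => (1 : ℝ)) :=
  fun _ _ _ _ => contDiffAt_const

theorem gc_law (hh : IsHerm h) {e : Ch X} (he : e ∈ atlas C2 X) {z : C2} (hz : z ∈ e.target) :
    gc h (e.symm z) = (cZ (loc11 e h) z / (loc11 e h z).det).re := by
  rw [gc, Qc_law hh ck_one he hz]
  have : (fun w : C2 => (((fun _ : X => (1 : ℝ)) (e.symm w) : ℝ) : ℂ)) = fun _ => 1 := by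
    funext w; simp
  rw [this, Nop_one]

theorem gc_smooth (hh : IsHerm h) : CkFn C2 ∞ (gc h) := by
  intro e he x hx
  have hz := e.map_source hx
  have h1 : (fun y => gc h (e.symm y)) =ᶠ[𝓝 (e x)]
      fun z => (cZ (loc11 e h) z / (loc11 e h z).det).re := by
    filter_upwards [e.open_target.mem_nhds hz] with z hz
    exact gc_law hh he hz
  refine ContDiffAt.congr_of_eventuallyEq ?_ h1
  have hH := fun i j => locH_cd hh he hz i j
  have hZ : ContDiffAt ℝ ∞ (cZ (loc11 e h)) (e x) :=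
    ((dzb_cd (dz_cd (hH 1 1) 0) 0).sub (dzb_cd (dz_cd (hH 0 1) 1) 0)).sub
      ((dzb_cd (dz_cd (hH 1 0) 0) 1).sub (dzb_cd (dz_cd (hH 0 0) 1) 1))
  have hq : ContDiffAt ℝ ∞ (fun z => cZ (loc11 e h) z / (loc11 e h z).det) (e x) := by
    simp only [div_eq_mul_inv]
    exact hZ.mul ((detH_cd hh he hz).inv (detH_ne hh he hz))
  exact Complex.reCLM.contDiff.contDiffAt.comp _ hq

/-- **the operator** `u ↦ ∂∂̄(u ω) / (i det h)` -/
def gLOp (hh : IsHerm h) : LOp C2 X where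
  A := gop hh
  b := gb h
  bsmooth e he y hy := gb_smooth hh he hy
  c := gc h
  csmooth := gc_smooth hh
  Q u x := (Qc h u x).re
  eq u hu e he x hx := by
    have hz := e.map_source hx
    have hxe := e.left_inv hx
    have h1 := Qc_law hh hu he hz
    have h2 := gop_law hh hu he hz
    have h3 := gc_law hh he hz
    rw [hxe] at h1 h2 h3
    have hud : DifferentiableAt ℝ (fun w => u (e.symm w)) (e x) :=
      (hu e he x hx).differentiableAt (by simp)
    rw [h1, h2, h3, Nop_eq (locu_cd2 hu he hz) (fun i j => locH_cd2 hh he hz i j)]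
    rw [add_div, add_div, Complex.add_re, Complex.add_re]
    have h4 : (cZ (loc11 e h) (e x) * ((u (e.symm (e x)) : ℝ) : ℂ) / (loc11 e h (e x)).det).re =
        (cZ (loc11 e h) (e x) / (loc11 e h (e x)).det).re * u x := by
      rw [hxe, mul_div_right_comm, Complex.re_mul_ofReal]
    have h5 : ((cP0 (loc11 e h) (e x) * dz 0 (fun w => (u (e.symm w) : ℂ)) (e x) +
        cP1 (loc11 e h) (e x) * dz 1 (fun w => (u (e.symm w) : ℂ)) (e x) +
        cQ0 (loc11 e h) (e x) * dzb 0 (fun w => (u (e.symm w) : ℂ)) (e x) +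
        cQ1 (loc11 e h) (e x) * dzb 1 (fun w => (u (e.symm w) : ℂ)) (e x)) /
          (loc11 e h (e x)).det).re = gb h e (e x) (fderiv ℝ (fun y => u (e.symm y)) (e x)) := by
      rw [dz_real hud, dz_real hud, dzb_real hud, dzb_real hud]
      simp only [gb, add_apply, cf_apply]
      rw [← Complex.add_re, ← Complex.add_re, ← Complex.add_re]
      congr 1
      ring
    rw [h4, h5]

end surf

end Vale.Agent.P290.H158
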