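import Vale.Agent.P267.H661.Solve

/-! P290 / H158: scalar second order elliptic operators with lower order terms on a compact
manifold: Fredholm alternative in Hölder spaces and regularity. -/

open scoped Topology ContDiff NNReal
open Filter Set Metric

set_option maxSynthPendingDepth 3
set_option linter.unusedSectionVars false

noncomputable section

namespace Vale.Agent.P290.H158

open Vale.Agent.P272.K Vale.Agent.P272.K.LIN Vale.Agent.P267.H661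

/-- A smooth elliptic second order operator `Q u = P u + b Du + c u`. -/
structure LOp (E : Type*) [NormedAddCommGroup E] [NormedSpace ℝ E] (X : Type*)
    [TopologicalSpace X] [ChartedSpace E X] where
  A : SOp E X
  b : OpenPartialHomeomorph X E → E → (E →L[ℝ] ℝ) →L[ℝ] ℝ
  bsmooth : ∀ e ∈ atlas E X, ∀ y ∈ e.target, ContDiffAt ℝ ∞ (b e) y
  c : X → ℝ
  csmooth : CkFn E ∞ c
  Q : (X → ℝ) → X → ℝ
  eq : ∀ u, CkFn E 2 u → ∀ e ∈ atlas E X, ∀ x ∈ e.source,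
    Q u x = A.P u x + b e (e x) (fderiv ℝ (fun y => u (e.symm y)) (e x)) + c x * u x

section holder

variable {E : Type*} [NormedAddCommGroup E] [NormedSpace ℝ E] {X : Type*} [TopologicalSpace X]
  [ChartedSpace E X] [FiniteDimensional ℝ E] (D : LOp E X) (𝒞 : Cov E X)
  [CompactSpace X] [T2Space X] [RSm E X] {α : ℝ} (h0 : 0 < α) (h1 : α ≤ 1)

/-- linear forms -/
abbrev LF (E : Type*) [NormedAddCommGroup E] [NormedSpace ℝ E] : Type _ := E →L[ℝ] ℝ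

/-- the cut off first order coefficient in the `i`-th chart -/
def LOp.coef (i : Fin 𝒞.N) : Hol (𝒞.w α) (LF E →L[ℝ] ℝ) :=
  N.cutH 𝒞 h0 h1 i (D.b (𝒞.e i)) (D.bsmooth _ (𝒞.mem i))

/-- the first derivative part of a jet -/
def jet1 : Jet E →L[ℝ] LF E :=
  (ContinuousLinearMap.fst ℝ (E →L[ℝ] ℝ) (BL E)).comp
    (ContinuousLinearMap.snd ℝ ℝ ((E →L[ℝ] ℝ) × BL E))

/-- the evaluation pairing -/
def evalPair1 : (LF E →L[ℝ] ℝ) →L[ℝ] LF E →L[ℝ] ℝ := ContinuousLinearMap.id ℝ (LF E →L[ℝ] ℝ)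

/-- scalar multiplication -/
def lsm1 : ℝ →L[ℝ] (LF E →L[ℝ] ℝ) →L[ℝ] (LF E →L[ℝ] ℝ) :=
  ContinuousLinearMap.lsmul (E := (LF E →L[ℝ] ℝ)) ℝ ℝ

/-- the coefficient multiplied by the partition of unity -/
def LOp.coef' (i : Fin 𝒞.N) : Hol (𝒞.w α) (LF E →L[ℝ] ℝ) :=
  Hol.bil (lsm1 (E := E)) (N.puH 𝒞 h0 h1 i) (D.coef 𝒞 h0 h1 i)

/-- the `i`-th part of the first order part -/
def LOp.Bi (i : Fin 𝒞.N) : 𝒞.C2 α →L[ℝ] Hol (𝒞.w α) ℝ :=
  ((Hol.bilL (w := 𝒞.w α) (evalPair1 (E := E)) (D.coef' 𝒞 h0 h1 i)).comp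
    (Hol.map (w := 𝒞.w α) (jet1 (E := E)))).comp (𝒞.J α i)

/-- the first order part -/
def LOp.B0 (u : X → ℝ) (x : X) : ℝ := D.Q u x - D.A.P u x - D.c x * u x

omit [FiniteDimensional ℝ E] [CompactSpace X] [T2Space X] [RSm E X] in
theorem LOp.B0_eq {u : X → ℝ} (hu : CkFn E 2 u) {e : OpenPartialHomeomorph X E}
    (he : e ∈ atlas E X) {x : X} (hx : x ∈ e.source) :
    D.B0 u x = D.b e (e x) (fderiv ℝ (fun y => u (e.symm y)) (e x)) := by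
  rw [LOp.B0, D.eq u hu e he x hx]
  ring

theorem LOp.Bi_apply (i : Fin 𝒞.N) (v : 𝒞.C2 α) (x : X) :
    D.Bi 𝒞 h0 h1 i v x = N.pu 𝒞 i x * D.B0 (𝒞.fn v) x := by
  have h : D.Bi 𝒞 h0 h1 i v x = (N.pu 𝒞 i x • (𝒞.η i x • D.b (𝒞.e i) (𝒞.e i x)))
    ((𝒞.J α i v x).2.1) := rfl
  rw [h]
  by_cases hp : N.pu 𝒞 i x = 0
  · rw [hp]; simp
  · obtain ⟨hx, hb⟩ := N.pu_ne_zero 𝒞 hp
    rw [𝒞.J_apply, 𝒞.Jf_of_ball hx hb, 𝒞.η_eq_one hx (ball_subset_closedBall hb), one_smul,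
      D.B0_eq (𝒞.fn_ck v) (𝒞.mem i) hx]
    rfl

/-- The operator `P + b D` from `C^{2,α}(X)` to `C^α(X)`. -/
def LOp.L : 𝒞.C2 α →L[ℝ] Hol (𝒞.w α) ℝ := D.A.L 𝒞 h0 h1 + ∑ i, D.Bi 𝒞 h0 h1 i

theorem LOp.L_apply (v : 𝒞.C2 α) (x : X) :
    D.L 𝒞 h0 h1 v x = D.A.P (𝒞.fn v) x + D.B0 (𝒞.fn v) x := by
  have hs : (∑ i, D.Bi 𝒞 h0 h1 i) v x = ∑ i, N.pu 𝒞 i x * D.B0 (𝒞.fn v) x := by
    rw [_root_.sum_apply, Hol.sum_apply]
    exact Finset.sum_congr rfl fun i _ => D.Bi_apply 𝒞 h0 h1 i v x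
  have ha : D.L 𝒞 h0 h1 v x = D.A.L 𝒞 h0 h1 v x + (∑ i, D.Bi 𝒞 h0 h1 i) v x := rfl
  rw [ha, D.A.L_apply, hs, ← Finset.sum_mul, N.pu_sum, one_mul]

theorem LOp.ell : Cov.Ell 𝒞 α (D.L 𝒞 h0 h1) (fun i => D.A.a (𝒞.e i)) (fun i => D.b (𝒞.e i)) where
  hola := (D.A.ell 𝒞 h0 h1).hola
  holb i := by
    have hr := 𝒞.r_pos i
    have hsub : closedBall (𝒞.c i) (2 * 𝒞.r i) ⊆ (𝒞.e i).target :=
      (closedBall_subset_closedBall (by linarith)).trans (𝒞.sub i)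
    obtain ⟨C, hC0, hC⟩ := 𝒞.symm_lip (𝒞.mem i) (isCompact_closedBall (𝒞.c i) (2 * 𝒞.r i)) hsub
    have hval : ∀ y ∈ ball (𝒞.c i) (2 * 𝒞.r i), D.coef 𝒞 h0 h1 i ((𝒞.e i).symm y) =
        D.b (𝒞.e i) y := by
      intro y hy
      obtain ⟨h2, h3, h4⟩ := 𝒞.η_symm hy
      rw [LOp.coef, N.cutH_apply, h4, h3, one_smul]
    refine ⟨(D.coef 𝒞 h0 h1 i).N1 * C ^ α, fun y hy y' hy' => ?_⟩
    rw [← hval y hy, ← hval y' hy']
    refine ((D.coef 𝒞 h0 h1 i).le_N1 _ _).trans ?_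
    rw [𝒞.coe_w, mul_assoc]
    refine mul_le_mul_of_nonneg_left ?_ (Hol.N1_nonneg _)
    rw [← Real.mul_rpow hC0 (norm_nonneg _)]
    exact Real.rpow_le_rpow (𝒞.d_nonneg _ _)
      (hC y (ball_subset_closedBall hy) y' (ball_subset_closedBall hy')) h0.le
  pos := (D.A.ell 𝒞 h0 h1).pos
  eq v i x hx hb := by
    rw [D.L_apply, D.A.eq _ (𝒞.fn_ck v) _ (𝒞.mem i) x hx, D.B0_eq (𝒞.fn_ck v) (𝒞.mem i) hx]

include h0 h1 in
/-- Fredholm alternative in Hölder spaces. -/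
theorem LOp.alt (h1' : α < 1) :
    (∃ v : 𝒞.C2 α, v ≠ 0 ∧ ∀ x, D.Q (𝒞.fn v) x = 0) ∨
      ∀ g : Hol (𝒞.w α) ℝ, ∃ v : 𝒞.C2 α, ∀ x, D.Q (𝒞.fn v) x = g x := by
  have hcs := 𝒞.completeSpace_C2 h0
  have hbij := linear_bijective h0 h1' (D.ell 𝒞 h0 h1) 1 one_pos
  let T : 𝒞.C2 α →L[ℝ] Hol (𝒞.w α) ℝ := 𝒞.incl α - D.L 𝒞 h0 h1
  have hT : Function.Bijective T := by
    have : (fun v => (1 : ℝ) • 𝒞.incl α v - D.L 𝒞 h0 h1 v) = T := by
      funext v; rw [one_smul]; rfl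
    rw [← this]; exact hbij
  let R : 𝒞.C2 α ≃L[ℝ] Hol (𝒞.w α) ℝ := ContinuousLinearEquiv.ofBijective T
    (LinearMap.ker_eq_bot.2 hT.1) (LinearMap.range_eq_top.2 hT.2)
  have hR : ∀ v x, R v x = 𝒞.fn v x - (D.A.P (𝒞.fn v) x + D.B0 (𝒞.fn v) x) := by
    intro v x
    rw [← D.L_apply 𝒞 h0 h1]
    rfl
  have hc1 : CkFn E 1 fun x => 1 + D.c x :=
    (((ckFn_const (1 : ℝ)).add D.csmooth).of_le (by exact_mod_cast le_top))
  let M : Hol (𝒞.w α) ℝ →L[ℝ] Hol (𝒞.w α) ℝ :=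
    Hol.bilL (w := 𝒞.w α) (ContinuousLinearMap.mul ℝ ℝ) (𝒞.ofCk h0 h1 (fun x => 1 + D.c x) hc1)
  have hM : ∀ h x, M h x = (1 + D.c x) * h x := fun h x => rfl
  let S : Hol (𝒞.w α) ℝ →L[ℝ] Hol (𝒞.w α) ℝ :=
    M.comp ((𝒞.incl α).comp (R.symm : Hol (𝒞.w α) ℝ →L[ℝ] 𝒞.C2 α))
  have hS : IsCompactOperator S := ((isCompactOperator_incl 𝒞 h0 h1').comp_clm _).clm_comp M
  have hSx : ∀ h x, S h x = (1 + D.c x) * 𝒞.fn (R.symm h) x := fun h x => rfl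
  have hQ : ∀ (v : 𝒞.C2 α) x, D.Q (𝒞.fn v) x =
      D.A.P (𝒞.fn v) x + D.B0 (𝒞.fn v) x + D.c x * 𝒞.fn v x := by
    intro v x
    rw [LOp.B0]; ring
  rcases hS.hasEigenvalue_or_mem_resolventSet (one_ne_zero) with h | h
  · left
    obtain ⟨h, hh⟩ := h.exists_hasEigenvector
    have hh1 : S h = h := by
      have := hh.apply_eq_smul
      rw [one_smul] at this
      exact this
    have hh0 : h ≠ 0 := hh.2
    refine ⟨R.symm h, fun hz => hh0 ?_, fun x => ?_⟩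
    · have := R.apply_symm_apply h
      rw [hz, map_zero] at this
      exact this.symm
    · have e1 := hR (R.symm h) x
      rw [R.apply_symm_apply] at e1
      have e2 := hSx h x
      rw [hh1] at e2
      rw [hQ]
      linarith
  · right
    intro g
    rw [spectrum.mem_resolventSet_iff, ContinuousLinearMap.isUnit_iff_bijective] at h
    obtain ⟨h, hh⟩ := h.2 (-g)
    refine ⟨R.symm h, fun x => ?_⟩
    have e1 := hR (R.symm h) x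
    rw [R.apply_symm_apply] at e1
    have e2 := hSx h x
    have e3 := congrArg (fun k : Hol (𝒞.w α) ℝ => k x) hh
    have e4 : ((algebraMap ℝ (Hol (𝒞.w α) ℝ →L[ℝ] Hol (𝒞.w α) ℝ)) 1 - S) h x =
        h x - S h x := by
      rw [map_one]; rfl
    simp only [e4] at e3
    have e5 : h x - S h x = - g x := e3
    rw [hQ]
    linarith

end holder

section smooth

variable {E : Type} [NormedAddCommGroup E] [NormedSpace ℝ E] {X : Type*} [TopologicalSpace X]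
  [ChartedSpace E X] [FiniteDimensional ℝ E] (D : LOp E X)
  [CompactSpace X] [T2Space X] [RSm E X]

/-- local regularity for linear equations with lower order terms -/
theorem local_reg {α : ℝ} (h0 : 0 < α) (h1 : α < 1) {U : Set E} (hU : IsOpen U)
    {a : E → R.Bil E →L[ℝ] ℝ} {b : E → (E →L[ℝ] ℝ) →L[ℝ] ℝ} {c g w : E → ℝ}
    (ha : ∀ y ∈ U, ContDiffAt ℝ ∞ a y) (hb : ∀ y ∈ U, ContDiffAt ℝ ∞ b y)
    (hc : ∀ y ∈ U, ContDiffAt ℝ ∞ c y) (hg : ∀ y ∈ U, ContDiffAt ℝ ∞ g y)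
    (hpos : ∀ y ∈ U, ∀ ℓ : E →L[ℝ] ℝ, ℓ ≠ 0 → 0 < a y (ℓ.smulRight ℓ))
    (hw : ∀ y ∈ U, ContDiffAt ℝ 2 w y) (hw2 : R.LHol α (R.D2 w) U)
    (heq : ∀ y ∈ U, a y (R.D2 w y) + b y (fderiv ℝ w y) + c y * w y = g y) :
    ContDiffOn ℝ ∞ w U := by
  have hh : ∀ k : ℕ, R.HC α U (k + 2) w := by
    intro k
    induction k with
    | zero =>
      refine ⟨fun y hy => (hw y hy).differentiableAt (by simp), fun y hy => ?_, hw2⟩
      exact ((hw y hy).fderiv_right (m := 1) (by norm_num)).differentiableAt (by simp)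
    | succ k ih =>
      have hsm : ∀ {F : Type} [NormedAddCommGroup F] [NormedSpace ℝ F] {f : E → F},
          (∀ y ∈ U, ContDiffAt ℝ ∞ f y) → R.HC α U (k + 1) f := fun {F} _ _ {f} hf =>
        R.HC.of_contDiff h0 h1.le hU fun y hy => (hf y hy).of_le (by exact_mod_cast le_top)
      have hD : R.HC α U (k + 1) (fderiv ℝ w) := ih.2
      have hw' : R.HC α U (k + 1) w := R.HC.mono h0 h1.le hU (by omega) ih
      have hG : R.HC α U (k + 1) (fun y => b y (fderiv ℝ w y) + (c y * w y + (-1) * g y)) := by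
        refine R.HC.add hU ?_ (R.HC.add hU ?_ ?_)
        · exact R.HC.bilin h0 h1.le hU (ContinuousLinearMap.id ℝ ((E →L[ℝ] ℝ) →L[ℝ] ℝ)) (hsm hb) hD
        · exact R.HC.bilin h0 h1.le hU (ContinuousLinearMap.mul ℝ ℝ) (hsm hc) hw'
        · exact R.HC.bilin h0 h1.le hU (ContinuousLinearMap.mul ℝ ℝ) (R.hc_const (-1 : ℝ) hU) (hsm hg)
      have h2 : R.HC α U 2 w := R.HC.mono h0 h1.le hU (by omega) ih
      exact R.linear_reg h0 h1.le (R.allCCE E h0 h1) hU (k + 1) (hsm ha) (R.hc_const (0 : ℝ) hU) hG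
        hpos h2 fun y hy => by
          have := heq y hy
          linarith
  rw [contDiffOn_infty]
  intro n
  exact (R.HC.mono h0 h1.le hU (by omega : n ≤ n + 2) (hh n)).contDiffOn h0 hU

/-- Regularity: a `C^{2,α}` solution of `Q u = g`, `g` smooth, is smooth. -/
theorem LOp.regular (𝒞 : Cov E X) {α : ℝ} (h0 : 0 < α) (h1 : α < 1) (v : 𝒞.C2 α) {g : X → ℝ}
    (hg : CkFn E ∞ g) (h : ∀ x, D.Q (𝒞.fn v) x = g x) : CkFn E ∞ (𝒞.fn v) := by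
  refine ckFn_of_local le_rfl fun x => ?_
  obtain ⟨i, hx, hb⟩ := 𝒞.cover x
  refine ⟨𝒞.e i, 𝒞.mem i, hx, ?_⟩
  have hr := 𝒞.r_pos i
  have hsub : ball (𝒞.c i) (2 * 𝒞.r i) ⊆ (𝒞.e i).target := 𝒞.sub' (by linarith)
  set w : E → ℝ := fun y => 𝒞.fn v ((𝒞.e i).symm y) with hw
  have hw2 : ∀ y ∈ ball (𝒞.c i) (2 * 𝒞.r i), ContDiffAt ℝ 2 w y := fun y hy =>
    (𝒞.fn_ck v).at_target (𝒞.mem i) (hsub hy)
  obtain ⟨C, hC0, hC⟩ := 𝒞.symm_lip (𝒞.mem i) (isCompact_closedBall (𝒞.c i) (2 * 𝒞.r i))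
    ((closedBall_subset_closedBall (by linarith)).trans (𝒞.sub i))
  have hD2 : ∀ y ∈ ball (𝒞.c i) (2 * 𝒞.r i), ((𝒞.J α i v) ((𝒞.e i).symm y)).2.2 =
      fderiv ℝ (fderiv ℝ w) y := by
    intro y hy
    rw [𝒞.J_apply, 𝒞.Jf_symm hy]
    rfl
  have hreg : ContDiffOn ℝ ∞ w (ball (𝒞.c i) (2 * 𝒞.r i)) := by
    refine local_reg h0 h1 isOpen_ball (a := D.A.a (𝒞.e i)) (b := D.b (𝒞.e i))
      (c := fun y => D.c ((𝒞.e i).symm y)) (g := fun y => g ((𝒞.e i).symm y))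
      (fun y hy => D.A.smooth _ (𝒞.mem i) _ (hsub hy))
      (fun y hy => D.bsmooth _ (𝒞.mem i) _ (hsub hy))
      (fun y hy => D.csmooth.at_target (𝒞.mem i) (hsub hy))
      (fun y hy => hg.at_target (𝒞.mem i) (hsub hy))
      (fun y hy => D.A.pos _ (𝒞.mem i) _ (hsub hy)) hw2 ?_ (fun y hy => ?_)
    · intro y hy
      obtain ⟨s, hs, hsb⟩ := Metric.isOpen_iff.1 isOpen_ball y hy
      refine ⟨s, hs, hsb, (𝒞.J α i v).N1 * C ^ α, ?_, fun z hz z' hz' => ?_⟩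
      · exact mul_nonneg (Hol.N1_nonneg _) (Real.rpow_nonneg hC0 _)
      show ‖fderiv ℝ (fderiv ℝ w) z - fderiv ℝ (fderiv ℝ w) z'‖ ≤ _
      rw [← hD2 z (hsb hz), ← hD2 z' (hsb hz')]
      have h2 : ‖((𝒞.J α i v) ((𝒞.e i).symm z)).2.2 - ((𝒞.J α i v) ((𝒞.e i).symm z')).2.2‖ ≤
          ‖(𝒞.J α i v) ((𝒞.e i).symm z) - (𝒞.J α i v) ((𝒞.e i).symm z')‖ :=
        (norm_snd_le ((𝒞.J α i v) ((𝒞.e i).symm z) - (𝒞.J α i v) ((𝒞.e i).symm z')).2).trans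
          (norm_snd_le _)
      refine h2.trans (((𝒞.J α i v).le_N1 _ _).trans ?_)
      rw [𝒞.coe_w, mul_assoc]
      refine mul_le_mul_of_nonneg_left ?_ (Hol.N1_nonneg _)
      rw [← Real.mul_rpow hC0 (norm_nonneg _)]
      exact Real.rpow_le_rpow (𝒞.d_nonneg _ _)
        (hC z (ball_subset_closedBall (hsb hz)) z' (ball_subset_closedBall (hsb hz'))) h0.le
    · have h2 := h ((𝒞.e i).symm y)
      rw [D.eq _ (𝒞.fn_ck v) _ (𝒞.mem i) _ ((𝒞.e i).map_target (hsub hy)),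
        D.A.eq _ (𝒞.fn_ck v) _ (𝒞.mem i) _ ((𝒞.e i).map_target (hsub hy)),
        (𝒞.e i).right_inv (hsub hy)] at h2
      exact h2
  exact hreg.contDiffAt (isOpen_ball.mem_nhds (𝒞.ball_sub hb))

/-- **Fredholm alternative in the smooth category.** -/
theorem LOp.alt_smooth {g : X → ℝ} (hg : CkFn E ∞ g) :
    (∃ v : X → ℝ, CkFn E ∞ v ∧ (∃ x, v x ≠ 0) ∧ ∀ x, D.Q v x = 0) ∨
      ∃ v : X → ℝ, CkFn E ∞ v ∧ ∀ x, D.Q v x = g x := by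
  obtain ⟨𝒞⟩ := Cov.nonempty E X
  have h0 : (0 : ℝ) < 1 / 2 := by norm_num
  have h1 : (1 / 2 : ℝ) < 1 := by norm_num
  rcases D.alt 𝒞 h0 h1.le h1 with ⟨v, hv, h⟩ | h
  · left
    refine ⟨𝒞.fn v, D.regular 𝒞 h0 h1 v (ckFn_const (0 : ℝ)) h, ?_, h⟩
    by_contra hcon
    push Not at hcon
    exact hv (𝒞.C2_ext fun x => by rw [hcon x, 𝒞.fn_zero])
  · right
    obtain ⟨v, hv⟩ := h (𝒞.ofCk h0 h1.le g (hg.of_le (by exact_mod_cast le_top)))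
    exact ⟨𝒞.fn v, D.regular 𝒞 h0 h1 v hg hv, hv⟩

end smooth

end Vale.Agent.P290.H158
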